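import Vale.Agent.P275GW.Tool

/-!
# P275, block DL: growth of the differentials of an equisingular family
-/

open scoped Polynomial Topology
open Polynomial Set Filter Bornology Metric

noncomputable section

namespace Vale.Agent.P275GW

open Vale.Agent.P275DL Vale.Agent.P275GE Vale.Agent.P275LL

variable {S V : Type} {X : Cov S} [NormedAddCommGroup V] [NormedSpace ℂ V] [FiniteDimensional ℂ V]
  {n N : ℕ} (D : SD X V n) {ψ : ℂ → V}

/-- the bound for the derivatives of the roots along the curve `ψ` -/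
def Dl (ψ : ℂ → V) (x : S) (b : ℝ) : Prop :=
  ∀ y : ℂ → ℂ, AnalyticAt ℂ y 0 → (∀ᶠ τ in 𝓝 (0 : ℂ), (D.P (ψ τ) x).IsRoot (y τ)) →
    ‖deriv y 0‖ ≤ b

theorem ev_bd (hψ : AnalyticAt ℂ ψ 0) :
    ∀ᶠ τ in 𝓝 (0 : ℂ), AnalyticAt ℂ ψ τ ∧ ‖ψ τ‖ ≤ ‖ψ 0‖ + 1 :=
  hψ.eventually_analyticAt.and
    ((hψ.continuousAt.norm.eventually (gt_mem_nhds (lt_add_one _))).mono fun _ h => h.le)

theorem caseA (hψ : AnalyticAt ℂ ψ 0) {l : Filter ℂ} {lam : ℂ → ℝ} (h0 : ∀ t, 0 ≤ lam t)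
    (h1 : ∀ᶠ x in 𝓝 (0 : ℂ) ×ˢ l, nr (D.Nm (ψ x.1) x.2) = N)
    (h2 : ∀ k < n, ∀ w, ∃ B, ∀ᶠ t in l, ∀ p ∈ X.fib t, ‖D.c k w p‖ ≤ B * lam t ^ (n - k)) :
    ∃ B, ∀ᶠ t in l, ∀ x ∈ X.fib t, Dl D ψ x (B * lam t) := by
  obtain ⟨B, hB0, hB⟩ := unif D (g := fun k t => lam t ^ (n - k)) (fun k t => pow_nonneg (h0 t) _) h2
  obtain ⟨pa, hpa, pb, hpb, H⟩ := eventually_prod_iff.1 h1
  obtain ⟨ρ, hρ, hb⟩ := eventually_nhds_iff_ball.1 (hpa.and (ev_bd hψ))
  refine ⟨2 * (n * (B * (‖ψ 0‖ + 1)) + 1) / ρ, ?_⟩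
  filter_upwards [hB, hpb] with t ht ht' x hx y hy hr
  obtain ⟨Y, hY, e, hYr⟩ := cont D hρ hx (fun τ hτ => ⟨(hb τ hτ).2.1, H (hb τ hτ).1 ht'⟩) hy hr
  rw [← e]
  refine (cauchy 0 hρ hY fun τ hτ => ?_).trans (le_of_eq (by ring) :
    2 * ((n * (B * (‖ψ 0‖ + 1)) + 1) * lam t) / ρ ≤ _)
  rw [sub_zero]
  exact root_le (hYr τ hτ) (by positivity) (h0 t) fun k hk => (ht x hx k hk _).trans
    (mul_le_mul_of_nonneg_right (mul_le_mul_of_nonneg_left (hb τ hτ).2.2 hB0) (pow_nonneg (h0 t) _))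

/-- the roots near a point which is not a puncture -/
theorem close (hψ : AnalyticAt ℂ ψ 0) (p : S) {c : ℝ} (hc : 0 < c) : ∃ K, 0 < K ∧
    ∀ᶠ t in 𝓝 (X.ψ p), ∀ τ ∈ ball (0 : ℂ) (c * ‖t - X.ψ p‖), AnalyticAt ℂ ψ τ ∧ ∀ y,
      (D.P (ψ τ) (X.σ p t)).IsRoot y → ‖(D.P (ψ 0) p).eval y‖ ≤ K * ‖t - X.ψ p‖ := by
  obtain ⟨B, hB0, hB⟩ := unif D (l := 𝓝 (X.ψ p)) (F := fun t x => x = X.σ p t)
    (g := fun _ _ => 1) (fun _ _ => zero_le_one) fun k _ w => ⟨‖D.c k w (X.σ p (X.ψ p))‖ + 1, by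
      filter_upwards [(D.hl k w p).continuousAt.norm.eventually (gt_mem_nhds (lt_add_one _))]
        with t ht x hx
      rw [hx, mul_one]
      exact ht.le⟩
  obtain ⟨L, hL⟩ := hψ.differentiableAt.isBigO_sub.bound
  choose A hA using fun k => (D.hl k (ψ 0) p).differentiableAt.isBigO_sub.bound
  obtain ⟨ρ, hρ, hb⟩ := eventually_nhds_iff_ball.1 (hL.and (ev_bd hψ))
  set R := (n * (B * (‖ψ 0‖ + 1)) + 1) * (1 : ℝ)
  have R0 : 0 ≤ R := by positivity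
  have K0 : 0 ≤ ∑ k ∈ Finset.range n, (B * (|L| * c) + |A k|) * R ^ k :=
    Finset.sum_nonneg fun _ _ => by positivity
  refine ⟨∑ k ∈ Finset.range n, (B * (|L| * c) + |A k|) * R ^ k + 1, by linarith, ?_⟩
  have c1 : ContinuousAt (fun t => c * ‖t - X.ψ p‖) (X.ψ p) := by fun_prop
  filter_upwards [hB, (Finset.eventually_all (Finset.range n)).2 fun k _ => hA k,
    c1.eventually (gt_mem_nhds (show c * ‖X.ψ p - X.ψ p‖ < ρ by simpa using hρ))]
    with t h1 h2 h3 τ hτ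
  have h4 := hb τ (ball_subset_ball h3.le hτ)
  refine ⟨h4.2.1, fun y hy => ?_⟩
  have hR : ‖y‖ ≤ R := root_le hy (by positivity) zero_le_one fun k hk => by
    rw [one_pow]
    exact (h1 _ rfl k hk _).trans (mul_le_mul_of_nonneg_right
      (mul_le_mul_of_nonneg_left h4.2.2 hB0) zero_le_one)
  have e0 : (D.P (ψ 0) p).eval y = (D.P (ψ 0) p).eval y - (D.P (ψ τ) (X.σ p t)).eval y := by
    rw [hy.eq_zero, sub_zero]
  rw [e0, eval_P, eval_P, add_sub_add_left_eq_sub,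
    ← Finset.sum_sub_distrib, add_mul, Finset.sum_mul]
  refine ((norm_sum_le _ _).trans (Finset.sum_le_sum fun k hk => ?_)).trans
    (le_add_of_nonneg_right (by positivity))
  rw [← sub_mul, norm_mul, norm_pow, mul_right_comm]
  refine mul_le_mul ?_ (pow_le_pow_left₀ (norm_nonneg _) hR k) (by positivity) (by positivity)
  have k1 := h1 _ rfl k (Finset.mem_range.1 hk) (ψ τ - ψ 0)
  have k2 := (h2 k hk).trans (mul_le_mul_of_nonneg_right (le_abs_self _) (norm_nonneg _))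
  have k3 : ‖ψ τ - ψ 0‖ ≤ |L| * (c * ‖t - X.ψ p‖) := h4.1.trans (mul_le_mul (le_abs_self _)
    (mem_ball_iff_norm.1 hτ).le (norm_nonneg _) (abs_nonneg _))
  rw [map_sub, Pi.sub_apply, mul_one, norm_sub_rev] at k1
  rw [X.self, norm_sub_rev] at k2
  have k4 := mul_le_mul_of_nonneg_left k3 hB0
  refine (norm_sub_le_norm_sub_add_norm_sub _ (D.c k (ψ 0) (X.σ p t)) _).trans ?_
  linarith

theorem caseB (hn : 0 < n) (hψ : AnalyticAt ℂ ψ 0) {t₀ : ℂ} (ht : t₀ ∉ X.Z) {c : ℝ} (hc : 0 < c)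
    (h1 : ∀ᶠ t in 𝓝[≠] t₀, ∀ τ ∈ ball (0 : ℂ) (c * ‖t - t₀‖), nr (D.Nm (ψ τ) t) = N) :
    ∃ B, ∀ᶠ t in 𝓝[≠] t₀, ∀ x ∈ X.fib t, Dl D ψ x (B * ‖t - t₀‖ ^ ((n : ℝ)⁻¹ - 1)) := by
  have key : ∀ p, X.ψ p = t₀ → ∃ B, ∀ᶠ t in 𝓝[≠] t₀,
      Dl D ψ (X.σ p t) (B * ‖t - t₀‖ ^ ((n : ℝ)⁻¹ - 1)) := by
    rintro p rfl
    obtain ⟨K, hK, hcl⟩ := close D hψ p hc
    have c1 : ContinuousAt (fun t => 3 * (K * ‖t - X.ψ p‖) ^ (n : ℝ)⁻¹) (X.ψ p) :=
      continuousAt_const.mul (ContinuousAt.rpow_const (by fun_prop) (Or.inr (by positivity)))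
    have sep : ∀ᶠ t in 𝓝 (X.ψ p), ∀ r ∈ (D.P (ψ 0) p).roots.toFinset,
        ∀ s ∈ (D.P (ψ 0) p).roots.toFinset, r ≠ s →
          3 * (K * ‖t - X.ψ p‖) ^ (n : ℝ)⁻¹ < ‖r - s‖ :=
      (Finset.eventually_all _).2 fun r _ => (Finset.eventually_all _).2 fun s _ =>
        eventually_imp_distrib_left.2 fun h => c1.eventually (gt_mem_nhds (by
          beta_reduce
          rw [sub_self, norm_zero, mul_zero, Real.zero_rpow (by positivity), mul_zero]
          exact norm_pos_iff.2 (sub_ne_zero.2 h)))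
    refine ⟨2 * K ^ (n : ℝ)⁻¹ / c, ?_⟩
    filter_upwards [h1, self_mem_nhdsWithin, nhdsWithin_le_nhds hcl, nhdsWithin_le_nhds sep,
      nhdsWithin_le_nhds (X.sec p)] with t k1 k2 k3 k4 k5 y hy hr
    have r0 : 0 < ‖t - X.ψ p‖ := norm_pos_iff.2 (sub_ne_zero.2 k2)
    have hρ := mul_pos hc r0
    obtain ⟨Y, hY, e, hYr⟩ := cont D hρ ((X.mem _ _).2 k5.1)
      (fun τ hτ => ⟨(k3 τ hτ).1, k1 τ hτ⟩) hy hr
    have hε : 0 < (K * ‖t - X.ψ p‖) ^ (n : ℝ)⁻¹ := by positivity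
    have dg : (D.P (ψ 0) p).natDegree = n := mon_nat _ _
    obtain ⟨r, hr⟩ := stay (convex_ball _ _).isPreconnected hY.continuousOn (mem_ball_self hρ) hε k4
      fun τ hτ => near_root (p := D.P (ψ 0) p) (mon_monic _ _) (dg.symm ▸ hn) hε (by
        rw [dg, Real.rpow_inv_natCast_pow (by positivity) hn.ne']
        exact (k3 τ hτ).2 _ (hYr τ hτ))
    rw [← e]
    refine (cauchy r hρ hY hr).trans (le_of_eq ?_)
    rw [Real.mul_rpow hK.le r0.le, Real.rpow_sub_one r0.ne']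
    field_simp
  choose! B hB using key
  refine ⟨∑ p ∈ X.fib t₀, |B p|, ?_⟩
  filter_upwards [(Finset.eventually_all (X.fib t₀)).2 fun p hp => hB p ((X.mem _ _).1 hp),
    nhdsWithin_le_nhds (X.bij t₀ ht)] with t k1 k2 x hx y hy hr
  obtain ⟨p, hp, rfl⟩ := k2.surjOn hx
  exact (k1 p hp y hy hr).trans (mul_le_mul_of_nonneg_right ((le_abs_self _).trans
    (Finset.single_le_sum (f := fun p => |B p|) (fun _ _ => abs_nonneg _) hp)) (by positivity))

theorem grw : GRW := by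
  intro S V X _ _ _ n D d φ q δ N hn hφ hq v
  have al : AnalyticAt ℂ (fun τ : ℂ => τ • v) 0 := analyticAt_id.smul analyticAt_const
  have l0 : (0 : ℂ) • v = 0 := zero_smul _ _
  have hψ : AnalyticAt ℂ (fun τ : ℂ => φ (τ • v)) 0 := hφ.comp_of_eq al l0
  have ev := (l0 ▸ al.continuousAt.tendsto).eventually hq.ev
  obtain ⟨z, hz, hz'⟩ := loc ℂ (fun τ => q (τ • v)) 0 δ (fun k => (hq.an k).comp_of_eq al l0)
    (ev.mono fun τ h => ⟨h.1, h.2.1, by rw [h.2.2.1, l0]⟩)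
  have br := bra_of (fun r => ⟨(hz r).1.continuousAt, (hz r).2⟩) hz'
  simp only [l0] at hz'
  have good : ∀ᶠ τ in 𝓝 (0 : ℂ), ∀ t, (∀ r ∈ (q 0).roots.toFinset, z r τ ≠ t) →
      nr (D.Nm (φ (τ • v)) t) = N := by
    filter_upwards [ev, hz'] with τ h1 h2 t ht
    refine h1.2.2.2.2 t ?_
    rw [h2, eval_prod]
    refine Finset.prod_ne_zero_iff.2 fun r hr => ?_
    rw [eval_pow, eval_sub, eval_X, eval_C]
    exact pow_ne_zero _ (sub_ne_zero.2 (ht r hr).symm)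
  obtain ⟨κ, hκ, hg⟩ := D.gr
  have κ0 : 0 < min κ (n : ℝ)⁻¹ := lt_min hκ (by positivity)
  have fin : ∀ t₀ ∈ (q 0).roots.toFinset, ∃ (B κ' : ℝ), min κ (n : ℝ)⁻¹ ≤ κ' ∧ ∀ᶠ t in 𝓝[≠] t₀,
      ∀ x ∈ X.fib t, D.Db φ v x (B * ‖t - t₀‖ ^ (κ' - 1)) := by
    intro t₀ _
    have far : ∀ᶠ x : ℂ × ℂ in 𝓝 (0, t₀), ∀ r ∈ (q 0).roots.toFinset, r ≠ t₀ → z r x.1 ≠ x.2 :=
      (Finset.eventually_all _).2 fun r _ => eventually_imp_distrib_left.2 fun h =>
        (show ContinuousAt (fun x : ℂ × ℂ => z r x.1 - x.2) (0, t₀) from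
          ((hz r).1.continuousAt.comp_of_eq continuousAt_fst rfl).sub
          continuousAt_snd).eventually_ne (y := 0) (by
            simpa [(hz r).2, sub_eq_zero] using h) |>.mono fun x hx => sub_ne_zero.1 hx
    rw [nhds_prod_eq] at far
    by_cases ht : t₀ ∈ X.Z
    · have e := br.eq (s := fun _ => t₀) continuousAt_const (ev.mono fun τ h =>
        Multiset.mem_toFinset.2 ((mem_roots h.1.ne_zero).2 (h.2.2.2.1 t₀ ht)))
      obtain ⟨B, hB⟩ := caseA D (N := N) hψ (l := 𝓝[≠] t₀) (lam := fun t => ‖t - t₀‖ ^ (κ - 1))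
        (fun t => by positivity) (by
          filter_upwards [(good.and e).prod_inl _, far.filter_mono (prod_mono_right _
            nhdsWithin_le_nhds), Eventually.prod_inr self_mem_nhdsWithin _] with x h1 h2 h3
          refine h1.1 _ fun r hr => ?_
          by_cases hr' : r = t₀
          · rw [hr', ← h1.2]
            exact fun h => h3 h.symm
          · exact h2 r hr hr')
        fun k hk w => (hg k hk w).imp fun B h => h.1 t₀ ht
      exact ⟨B, κ, min_le_left _ _, hB⟩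
    · obtain ⟨L, hL⟩ := (hz t₀).1.differentiableAt.isBigO_sub.bound
      obtain ⟨pa, hpa, pb, hpb, H⟩ := eventually_prod_iff.1 far
      obtain ⟨ρ, hρ, hb⟩ := eventually_nhds_iff_ball.1 (hpa.and (good.and hL))
      have hc : 0 < (|L| + 1)⁻¹ := by positivity
      have c1 : ContinuousAt (fun t => (|L| + 1)⁻¹ * ‖t - t₀‖) t₀ := by fun_prop
      obtain ⟨B, hB⟩ := caseB D (N := N) hn hψ ht hc (by
        filter_upwards [nhdsWithin_le_nhds hpb, nhdsWithin_le_nhds (c1.eventually (gt_mem_nhds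
          (show (|L| + 1)⁻¹ * ‖t₀ - t₀‖ < ρ by simpa using hρ)))] with t h1 h2 τ hτ
        have h3 := hb τ (ball_subset_ball h2.le hτ)
        refine h3.2.1 t fun r hr => ?_
        by_cases hr' : r = t₀
        · rintro rfl
          have h4 := h3.2.2
          have h5 := mem_ball_iff_norm.1 hτ
          rw [(hz t₀).2, ← hr'] at h4
          rw [← hr', ← div_eq_inv_mul, lt_div_iff₀ (by positivity)] at h5
          nlinarith [le_abs_self L, norm_nonneg (τ - 0)]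
        · exact H h3.1 h1 r hr hr')
      exact ⟨B, _, min_le_right _ _, hB⟩
  choose! B κ' hκ' hB using fin
  obtain ⟨B', hB'⟩ := caseA D (N := N) hψ (l := cobounded ℂ) (lam := fun t => ‖t‖ ^ (-1 - κ))
    (fun t => by positivity) (by
      filter_upwards [good.prod_inl _, ((Finset.eventually_all (q 0).roots.toFinset).2 fun r _ =>
        (hz r).1.continuousAt.norm.eventually (gt_mem_nhds (lt_add_one _))).prod_inl _,
        ((Finset.eventually_all (q 0).roots.toFinset).2 fun r _ =>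
          ev_ge (‖z r 0‖ + 1)).prod_inr _] with x h1 h2 h3
      exact h1 _ fun r hr h => absurd (h ▸ h2 r hr) (not_lt.2 (h3 r hr)))
    fun k hk w => (hg k hk w).imp fun B h => h.2
  have s0 : 0 ≤ ∑ t₀ ∈ (q 0).roots.toFinset, |B t₀| := Finset.sum_nonneg fun _ _ => abs_nonneg _
  refine ⟨min κ (n : ℝ)⁻¹, ∑ t₀ ∈ (q 0).roots.toFinset, |B t₀| + |B'|, κ0, fun t₀ ht => ?_, ?_⟩
  · filter_upwards [hB t₀ ht, self_mem_nhdsWithin,
      nhdsWithin_le_nhds (closedBall_mem_nhds t₀ one_pos)] with t h1 h2 h3 x hx y hy hr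
    refine (h1 x hx y hy hr).trans (mul_le_mul ?_ (Real.rpow_le_rpow_of_exponent_ge
      (norm_pos_iff.2 (sub_ne_zero.2 h2)) (mem_closedBall_iff_norm.1 h3)
      (by linarith [hκ' t₀ ht])) (by positivity) (by positivity))
    linarith [le_abs_self (B t₀), Finset.single_le_sum (f := fun t => |B t|)
      (fun _ _ => abs_nonneg _) ht, abs_nonneg B']
  · filter_upwards [hB', ev_ge 1] with t h1 h2 x hx y hy hr
    refine (h1 x hx y hy hr).trans (mul_le_mul ?_ (Real.rpow_le_rpow_of_exponent_le h2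
      (by linarith [min_le_left κ (n : ℝ)⁻¹])) (by positivity) (by positivity))
    linarith [le_abs_self B']

end Vale.Agent.P275GW
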