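import Vale.Agent.P275GE.Gens
import Vale.Agent.P275LL.Loc
import Vale.Agent.P275DL.Defs2

/-!
# P275, block DL: continuation of roots and Cauchy estimates
-/

open scoped Polynomial Topology
open Polynomial Set Filter Bornology Metric

noncomputable section

namespace Vale.Agent.P275GW

open Vale.Agent.P275DL Vale.Agent.P275GE Vale.Agent.P275LL

theorem cauchy {Y : ℂ → ℂ} {ρ M : ℝ} (c : ℂ) (hρ : 0 < ρ) (hY : DifferentiableOn ℂ Y (ball 0 ρ))
    (h : ∀ τ ∈ ball (0 : ℂ) ρ, ‖Y τ - c‖ ≤ M) : ‖deriv Y 0‖ ≤ 2 * M / ρ := by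
  have hs : closedBall (0 : ℂ) (ρ / 2) ⊆ ball 0 ρ := closedBall_subset_ball (half_lt_self hρ)
  have := Complex.norm_deriv_le_of_forall_mem_sphere_norm_le (half_pos hρ)
    ((hY.sub_const c).diffContOnCl_ball hs) fun z hz => h z (hs (sphere_subset_closedBall hz))
  rw [deriv_sub_const] at this
  refine this.trans (le_of_eq ?_)
  field_simp

theorem mon_deg (n : ℕ) (c : ℕ → ℂ) :
    (∑ k ∈ Finset.range n, C (c k) * (X : ℂ[X]) ^ k).degree < n := by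
  simpa only [Finset.sum_range] using degree_sum_fin_lt fun k : Fin n => c k

theorem mon_monic (n : ℕ) (c : ℕ → ℂ) : (mon n c).Monic := monic_X_pow_add (mon_deg n c)

theorem mon_nat (n : ℕ) (c : ℕ → ℂ) : (mon n c).natDegree = n := by
  rw [mon, natDegree_add_eq_left_of_degree_lt (by rw [degree_X_pow]; exact mon_deg n c),
    natDegree_X_pow]

theorem mon_eval (n : ℕ) (c : ℕ → ℂ) (y : ℂ) :
    (mon n c).eval y = y ^ n + ∑ k ∈ Finset.range n, c k * y ^ k := by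
  simp [mon, eval_finset_sum]

theorem root_le {n : ℕ} {c : ℕ → ℂ} {y : ℂ} {B l : ℝ} (h : (mon n c).IsRoot y) (hB : 0 ≤ B)
    (hl : 0 ≤ l) (hc : ∀ k < n, ‖c k‖ ≤ B * l ^ (n - k)) : ‖y‖ ≤ (n * B + 1) * l := by
  by_contra hn
  have h0 : 0 ≤ n * B * l := by positivity
  have h1 : l < ‖y‖ := by nlinarith [not_le.1 hn]
  rw [IsRoot.def, mon_eval, add_eq_zero_iff_eq_neg] at h
  cases n with
  | zero => simp at h
  | succ m =>
    have h2 : ‖y‖ ^ (m + 1) ≤ ∑ _k ∈ Finset.range (m + 1), B * l * ‖y‖ ^ m := by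
      rw [← norm_pow, h, norm_neg]
      refine (norm_sum_le _ _).trans (Finset.sum_le_sum fun k hk => ?_)
      obtain ⟨j, rfl⟩ := Nat.exists_eq_add_of_le (Nat.lt_succ_iff.1 (Finset.mem_range.1 hk))
      rw [norm_mul, norm_pow]
      refine (mul_le_mul_of_nonneg_right (hc k (Finset.mem_range.1 hk)) (by positivity)).trans ?_
      rw [show k + j + 1 - k = j + 1 by omega, pow_succ, pow_add]
      have := mul_le_mul_of_nonneg_left (pow_le_pow_left₀ hl h1.le j)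
        (show 0 ≤ B * l * ‖y‖ ^ k by positivity)
      linarith
    rw [Finset.sum_const, Finset.card_range, nsmul_eq_mul, pow_succ, ← mul_assoc, mul_comm] at h2
    have := le_of_mul_le_mul_right h2 (pow_pos (hl.trans_lt h1) m)
    nlinarith [not_le.1 hn]

theorem near_root {p : ℂ[X]} (hp : p.Monic) (hn : 0 < p.natDegree) {y : ℂ} {ε : ℝ} (hε : 0 < ε)
    (h : ‖p.eval y‖ ≤ ε ^ p.natDegree) : ∃ r ∈ p.roots.toFinset, ‖y - r‖ ≤ ε := by
  by_contra! hc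
  have hs := sum_mult p
  have hne : p.roots.toFinset.Nonempty := Finset.nonempty_of_sum_ne_zero (hs ▸ hn.ne')
  rw [← hs, ← Finset.prod_pow_eq_pow_sum] at h
  conv_lhs at h => rw [prod_mult hp]
  simp only [eval_prod, eval_pow, eval_sub, eval_X, eval_C, norm_prod, norm_pow] at h
  refine absurd h (not_le.2 (Finset.prod_lt_prod_of_nonempty (fun _ _ => pow_pos hε _)
    (fun r hr => pow_lt_pow_left₀ (hc r hr) hε.le ?_) hne))
  exact ((rootMultiplicity_pos hp.ne_zero).2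
    ((mem_roots hp.ne_zero).1 (Multiset.mem_toFinset.1 hr))).ne'

/-- a continuous function close to a separated set stays close to one point -/
theorem stay {U : Set ℂ} (hU : IsPreconnected U) {Y : ℂ → ℂ} (hY : ContinuousOn Y U) {a : ℂ}
    (ha : a ∈ U) {R : Finset ℂ} {ε : ℝ} (hε : 0 < ε)
    (hR : ∀ r ∈ R, ∀ s ∈ R, r ≠ s → 3 * ε < ‖r - s‖) (h : ∀ τ ∈ U, ∃ r ∈ R, ‖Y τ - r‖ ≤ ε) :
    ∃ r, ∀ τ ∈ U, ‖Y τ - r‖ ≤ ε := by
  obtain ⟨r, hr, h0⟩ := h a ha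
  have key : ∀ τ ∈ U, ‖Y τ - r‖ ≤ 2 * ε → ‖Y τ - r‖ ≤ ε := fun τ hτ h2 => by
    obtain ⟨s, hs, h3⟩ := h τ hτ
    by_cases e : r = s
    · rwa [e]
    · have := norm_sub_le_norm_sub_add_norm_sub r (Y τ) s
      rw [norm_sub_rev r (Y τ)] at this
      linarith [hR r hr s hs e]
  refine ⟨r, fun τ hτ => key τ hτ (not_lt.1 fun h2 => ?_)⟩
  obtain ⟨u, hu, h3⟩ := hU.intermediate_value ha hτ (hY.sub continuousOn_const).norm
    (show 2 * ε ∈ Icc ‖Y a - r‖ ‖Y τ - r‖ from ⟨by linarith, h2.le⟩)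
  have h4 : ‖Y u - r‖ = 2 * ε := h3
  linarith [key u hu h4.le]

variable {S V : Type} {X : Cov S} [NormedAddCommGroup V] [NormedSpace ℂ V] [FiniteDimensional ℂ V]
  {n : ℕ} (D : SD X V n)

theorem unif {l : Filter ℂ} {F : ℂ → S → Prop} {g : ℕ → ℂ → ℝ} (hg : ∀ k t, 0 ≤ g k t)
    (h : ∀ k < n, ∀ w, ∃ B, ∀ᶠ t in l, ∀ p, F t p → ‖D.c k w p‖ ≤ B * g k t) :
    ∃ B, 0 ≤ B ∧ ∀ᶠ t in l, ∀ p, F t p → ∀ k < n, ∀ w, ‖D.c k w p‖ ≤ B * ‖w‖ * g k t := by
  let b := Module.finBasis ℂ V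
  choose! B hB using h
  have p0 : ∀ k, 0 ≤ ∑ i, ‖LinearMap.toContinuousLinearMap (b.coord i)‖ * |B k (b i)| := fun k =>
    Finset.sum_nonneg fun _ _ => by positivity
  refine ⟨∑ k ∈ Finset.range n, ∑ i, ‖LinearMap.toContinuousLinearMap (b.coord i)‖ * |B k (b i)|,
    Finset.sum_nonneg fun k _ => p0 k, ?_⟩
  filter_upwards [(Finset.eventually_all (Finset.range n)).2 fun k hk =>
    eventually_all.2 fun i => hB k (Finset.mem_range.1 hk) (b i)] with t ht p hp k hk w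
  refine le_trans ?_ (mul_le_mul_of_nonneg_right (mul_le_mul_of_nonneg_right
    (Finset.single_le_sum (fun k _ => p0 k) (Finset.mem_range.2 hk)) (norm_nonneg w)) (hg k t))
  conv_lhs => rw [← b.sum_repr w, map_sum, Finset.sum_apply]
  rw [Finset.sum_mul, Finset.sum_mul]
  refine (norm_sum_le _ _).trans (Finset.sum_le_sum fun i _ => ?_)
  rw [map_smul, Pi.smul_apply, norm_smul]
  refine (mul_le_mul ((LinearMap.toContinuousLinearMap (b.coord i)).le_opNorm w)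
    ((ht k (Finset.mem_range.2 hk) i p hp).trans
      (mul_le_mul_of_nonneg_right (le_abs_self _) (hg k t))) (norm_nonneg _)
    (by positivity)).trans (le_of_eq (by ring))

theorem an_c {ψ : ℂ → V} {τ : ℂ} (h : AnalyticAt ℂ ψ τ) (k : ℕ) (x : S) :
    AnalyticAt ℂ (fun τ => D.c k (ψ τ) x) τ :=
  ((LinearMap.toContinuousLinearMap ((LinearMap.proj x).comp (D.c k))).analyticAt _).comp h

theorem an_nm {ψ : ℂ → V} {τ : ℂ} (h : AnalyticAt ℂ ψ τ) (t : ℂ) (k : ℕ) :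
    AnalyticAt ℂ (fun τ => (D.Nm (ψ τ) t).coeff k) τ := by
  refine ((an_pol ((NmP D univ t).coeff k) _).comp h).congr (Eventually.of_forall fun e => ?_)
  exact (coeff_map (evP (Y := univ) ⟨ψ e, trivial⟩) k).symm.trans
    (congrArg (coeff · k) (NmP_map D univ t ⟨ψ e, trivial⟩))

omit [FiniteDimensional ℂ V] in
theorem nm_nat (v : V) (t : ℂ) : (D.Nm v t).natDegree = (X.fib t).card * n := by
  rw [SD.Nm, natDegree_prod_of_monic _ (D.P v) fun x _ => mon_monic n _]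
  simp [SD.P, mon_nat]

omit [FiniteDimensional ℂ V] in
theorem nm_root {v : V} {t y : ℂ} {x : S} (hx : x ∈ X.fib t) (h : (D.P v x).IsRoot y) :
    (D.Nm v t).IsRoot y := h.dvd (Finset.dvd_prod_of_mem _ hx)

/-- continuation of a root over a disc -/
theorem cont {ψ : ℂ → V} {ρ : ℝ} {t : ℂ} {x : S} {N : ℕ} (hρ : 0 < ρ) (hx : x ∈ X.fib t)
    (hψ : ∀ τ ∈ ball (0 : ℂ) ρ, AnalyticAt ℂ ψ τ ∧ nr (D.Nm (ψ τ) t) = N) {y : ℂ → ℂ}
    (hy : AnalyticAt ℂ y 0) (hr : ∀ᶠ τ in 𝓝 (0 : ℂ), (D.P (ψ τ) x).IsRoot (y τ)) :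
    ∃ Y, DifferentiableOn ℂ Y (ball 0 ρ) ∧ deriv Y 0 = deriv y 0 ∧
      ∀ τ ∈ ball (0 : ℂ) ρ, (D.P (ψ τ) x).IsRoot (Y τ) := by
  have hb := ball_mem_nhds (0 : ℂ) hρ
  have h0 := mem_ball_self (x := (0 : ℂ)) hρ
  obtain ⟨Y, hY, hY0, hYr⟩ := lift (fun τ => D.Nm (ψ τ) t) ρ _ N (y 0)
    (fun τ hτ => ⟨an_nm D (hψ τ hτ).1 t, nm_monic D _ t, nm_nat D _ t, (hψ τ hτ).2⟩)
    (nm_root D hx hr.self_of_nhds)
  obtain ⟨z, hz, hz'⟩ := loc ℂ (fun τ => D.Nm (ψ τ) t) 0 _ (an_nm D (hψ 0 h0).1 t)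
    (mem_of_superset hb fun τ hτ => ⟨nm_monic D _ t, nm_nat D _ t,
      ((hψ τ hτ).2.trans (hψ 0 h0).2.symm).le⟩)
  have br := bra_of (fun r => ⟨(hz r).1.continuousAt, (hz r).2⟩) hz'
  have mem : ∀ {v : V} {s : ℂ}, (D.Nm v t).IsRoot s → s ∈ (D.Nm v t).roots.toFinset := fun h =>
    Multiset.mem_toFinset.2 ((mem_roots (nm_monic D _ t).ne_zero).2 h)
  have e1 := br.eq hy.continuousAt (hr.mono fun τ h => mem (nm_root D hx h))
  have e2 := br.eq (hY.differentiableAt hb).continuousAt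
    (mem_of_superset hb fun τ hτ => mem (hYr τ hτ))
  rw [hY0] at e2
  have e3 : Y =ᶠ[𝓝 0] y := e2.trans e1.symm
  refine ⟨Y, hY, e3.deriv_eq, ?_⟩
  have aY := hY.analyticOnNhd isOpen_ball
  have a : AnalyticOnNhd ℂ (fun τ => (D.P (ψ τ) x).eval (Y τ)) (ball 0 ρ) := fun τ hτ => by
    simp only [eval_P]
    exact ((aY τ hτ).pow n).add (Finset.analyticAt_fun_sum _ fun k _ =>
      (an_c D (hψ τ hτ).1 k x).mul ((aY τ hτ).pow k))
  refine a.eqOn_zero_of_preconnected_of_eventuallyEq_zero (convex_ball _ _).isPreconnected h0 ?_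
  filter_upwards [e3, hr] with τ h1 h2
  rw [h1]
  exact h2

end Vale.Agent.P275GW
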